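import Vale.Agent.P017.R2.H985.Conv

open Finset

namespace Vale.Agent.P017.R2.H985

theorem rankin {Y : ℕ} (hY : 2 ≤ Y) {σ : ℝ} (hσ : σ = 1 + 1 / (1 + Real.log Y)) :
    ∑ m ∈ (Icc 1 Y).filter (fun m => Squarefree m ∧ m.Coprime 30),
    (∑ b ∈ m.divisors, ∑ c ∈ (m / b).divisors, (jacobiSym b c : ℝ)) /
      (2 ^ m.primeFactors.card * m) ≤ Real.exp 1 * (D σ * Z σ) := by
  have hlogY : 0 < Real.log Y := Real.log_pos (by exact_mod_cast hY)
  have hσ1 : 1 < σ := by
    rw [hσ]
    have : (0:ℝ) < 1 / (1 + Real.log Y) := by positivity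
    linarith
  set t : ℕ × ℕ → ℝ := fun x => lam σ x.1 * lam σ x.2 * ∑ c ∈ x.2.divisors, J x.1 c with ht
  have ht0 : ∀ x, 0 ≤ t x := fun x =>
    mul_nonneg (mul_nonneg (lam_nonneg σ _) (lam_nonneg σ _)) (G_nonneg _ _)
  have h1 : ∀ m ∈ (Icc 1 Y).filter (fun m => Squarefree m ∧ m.Coprime 30),
      (∑ b ∈ m.divisors, ∑ c ∈ (m / b).divisors, (jacobiSym b c : ℝ)) /
      (2 ^ m.primeFactors.card * m) ≤ Real.exp 1 * ∑ x ∈ m.divisorsAntidiagonal, t x := by
    intro m hm
    rw [mem_filter, mem_Icc] at hm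
    obtain ⟨⟨hm1, hmY⟩, hsq, hcop⟩ := hm
    have hodd : Odd m := by
      rw [Nat.odd_iff]
      by_contra h
      have h2 : 2 ∣ m := by omega
      have := Nat.dvd_gcd h2 (by norm_num : 2 ∣ 30)
      rw [hcop] at this
      norm_num at this
    have h2 : ∑ x ∈ m.divisorsAntidiagonal, t x =
        lam σ m * ∑ b ∈ m.divisors, ∑ c ∈ (m / b).divisors, (jacobiSym b c : ℝ) := by
      rw [mul_sum, ← Nat.sum_divisorsAntidiagonal
        (fun b n => lam σ m * ∑ c ∈ n.divisors, (jacobiSym b c : ℝ))]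
      apply sum_congr rfl
      rintro ⟨b, n⟩ hx
      rw [Nat.mem_divisorsAntidiagonal] at hx
      simp only [ht]
      rw [← hx.1, lam_mul]
      rfl
    have hG : 0 ≤ ∑ b ∈ m.divisors, ∑ c ∈ (m / b).divisors, (jacobiSym b c : ℝ) :=
      sum_nonneg fun b _ => G_nonneg b _
    rw [h2]
    have hm0 : (0:ℝ) < m := by exact_mod_cast hm1
    have h3 : 1 / (2 ^ m.primeFactors.card * (m:ℝ)) ≤ Real.exp 1 * lam σ m := by
      unfold lam
      rw [if_pos hodd]
      have h4 : ArithmeticFunction.cardFactors m = m.primeFactors.card := by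
        rw [← ArithmeticFunction.cardDistinctFactors_eq_cardFactors_iff_squarefree hsq.ne_zero |>.mpr hsq]
        rfl
      rw [h4]
      have h5 : (1:ℝ) / m ≤ Real.exp 1 * (m:ℝ) ^ (-σ) := by
        have h6 : (m:ℝ) ^ (-σ) = (1 / m) * Real.exp (-(Real.log m * (1 / (1 + Real.log Y)))) := by
          have h9 : (m:ℝ) ^ (-(1 / (1 + Real.log Y))) =
              Real.exp (-(Real.log m * (1 / (1 + Real.log Y)))) := by
            rw [Real.rpow_def_of_pos hm0]; congr 1; ring
          rw [hσ, neg_add, Real.rpow_add hm0, Real.rpow_neg_one, h9, one_div (m:ℝ)]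
        rw [h6, mul_comm (Real.exp 1), mul_assoc, ← Real.exp_add]
        apply le_mul_of_one_le_right (by positivity)
        apply Real.one_le_exp
        have h7 : Real.log m ≤ Real.log Y := Real.log_le_log hm0 (by exact_mod_cast hmY)
        have h8 : Real.log m * (1 / (1 + Real.log Y)) ≤ 1 := by
          rw [mul_one_div, div_le_one (by positivity)]
          linarith
        linarith
      calc 1 / (2 ^ m.primeFactors.card * (m:ℝ)) = (1/2) ^ m.primeFactors.card * (1 / m) := by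
            rw [one_div_pow]; field_simp
        _ ≤ (1/2) ^ m.primeFactors.card * (Real.exp 1 * (m:ℝ) ^ (-σ)) := by gcongr
        _ = _ := by ring
    calc _ = (1 / (2 ^ m.primeFactors.card * (m:ℝ))) *
          ∑ b ∈ m.divisors, ∑ c ∈ (m / b).divisors, (jacobiSym b c : ℝ) := by ring
      _ ≤ (Real.exp 1 * lam σ m) * ∑ b ∈ m.divisors, ∑ c ∈ (m / b).divisors, (jacobiSym b c : ℝ) := by
          gcongr
      _ = _ := by ring
  refine (sum_le_sum h1).trans ?_
  rw [← mul_sum]
  apply mul_le_mul_of_nonneg_left _ (Real.exp_pos 1).le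
  rw [← sum_biUnion]
  · exact sum_le_hasSum _ (fun x _ => ht0 x) (hasSum_pairs hσ1)
  · intro m _ n _ hmn
    rw [Function.onFun, disjoint_left]
    intro x hx hx'
    rw [Nat.mem_divisorsAntidiagonal] at hx hx'
    exact hmn (hx.1.symm.trans hx'.1)

end Vale.Agent.P017.R2.H985
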