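import Vale.Agent.P017.R2.H985.Block
import Vale.Agent.P017.R2.H985.Rankin

open Finset Filter Topology

namespace Vale.Agent.P017.R2.H985

variable {σ : ℝ}

theorem tendsto_pow2 : Tendsto (fun T : ℕ => 2 ^ T) atTop atTop :=
  tendsto_pow_atTop_atTop_of_one_lt (by norm_num)

theorem tendsto_sq (hσ : 1 < σ) :
    Tendsto (fun T : ℕ => ∑ b ∈ range (2 ^ T), ∑ c ∈ range (2 ^ T), F σ (b, c)) atTop (𝓝 (D σ)) := by
  have h1 : HasSum (F σ) (D σ) := (summable_F hσ).hasSum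
  have h2 : Tendsto (fun T : ℕ => range (2 ^ T) ×ˢ range (2 ^ T)) atTop atTop := by
    apply tendsto_atTop_finset_of_monotone
    · intro a b hab
      apply product_subset_product <;>
      · apply range_subset_range.mpr
        exact Nat.pow_le_pow_right (by norm_num) hab
    · rintro ⟨b, c⟩
      refine ⟨max b c, ?_⟩
      rw [mem_product, mem_range, mem_range]
      have h3 : max b c < 2 ^ (max b c) := Nat.lt_two_pow_self
      exact ⟨lt_of_le_of_lt (le_max_left _ _) h3, lt_of_le_of_lt (le_max_right _ _) h3⟩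
  have h3 := h1.comp h2
  refine h3.congr (fun T => ?_)
  simp only [Function.comp]
  rw [sum_product]

theorem split_sq (i0 T : ℕ) (hT : i0 ≤ T) (f : ℕ → ℕ → ℝ) :
    ∑ b ∈ range (2 ^ T), ∑ c ∈ range (2 ^ T), f b c =
      ∑ b ∈ range (2 ^ i0), ∑ c ∈ range (2 ^ T), f b c +
      ((∑ c ∈ range (2 ^ i0), ∑ b ∈ range (2 ^ T), f b c) -
        ∑ c ∈ range (2 ^ i0), ∑ b ∈ range (2 ^ i0), f b c) +
      ∑ b ∈ Ico (2 ^ i0) (2 ^ T), ∑ c ∈ Ico (2 ^ i0) (2 ^ T), f b c := by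
  have hle : 2 ^ i0 ≤ 2 ^ T := Nat.pow_le_pow_right (by norm_num) hT
  have h1 : ∀ g : ℕ → ℝ, ∑ b ∈ range (2 ^ T), g b = ∑ b ∈ range (2 ^ i0), g b +
      ∑ b ∈ Ico (2 ^ i0) (2 ^ T), g b := fun g => (sum_range_add_sum_Ico g hle).symm
  rw [h1 (fun b => ∑ c ∈ range (2 ^ T), f b c)]
  have h2 : ∑ b ∈ Ico (2 ^ i0) (2 ^ T), ∑ c ∈ range (2 ^ T), f b c =
      ∑ b ∈ Ico (2 ^ i0) (2 ^ T), ∑ c ∈ range (2 ^ i0), f b c +
      ∑ b ∈ Ico (2 ^ i0) (2 ^ T), ∑ c ∈ Ico (2 ^ i0) (2 ^ T), f b c := by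
    rw [← sum_add_distrib]
    exact sum_congr rfl fun b _ => h1 _
  have h3 : ∑ c ∈ range (2 ^ i0), ∑ b ∈ range (2 ^ T), f b c =
      ∑ c ∈ range (2 ^ i0), ∑ b ∈ range (2 ^ i0), f b c +
      ∑ c ∈ range (2 ^ i0), ∑ b ∈ Ico (2 ^ i0) (2 ^ T), f b c := by
    rw [← sum_add_distrib]
    exact sum_congr rfl fun b _ => h1 _
  have h4 : ∑ c ∈ range (2 ^ i0), ∑ b ∈ Ico (2 ^ i0) (2 ^ T), f b c =
      ∑ b ∈ Ico (2 ^ i0) (2 ^ T), ∑ c ∈ range (2 ^ i0), f b c := sum_comm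
  rw [h2, h3, h4]
  ring

theorem tendsto_row (hσ : 1 < σ) (b : ℕ) :
    Tendsto (fun T : ℕ => ∑ c ∈ range (2 ^ T), F σ (b, c)) atTop (𝓝 (lam σ b * T σ b)) := by
  have h1 : HasSum (fun c => lam σ b * (lam σ c * J b c)) (lam σ b * T σ b) :=
    ((summable_lam_mul hσ (fun n => abs_J_le b n)).hasSum).mul_left _
  have h2 := (h1.tendsto_sum_nat).comp tendsto_pow2
  refine h2.congr (fun T => ?_)
  simp only [Function.comp]
  apply sum_congr rfl
  intro c _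
  unfold F; ring

theorem tendsto_col (hσ : 1 < σ) (c : ℕ) :
    Tendsto (fun T : ℕ => ∑ b ∈ range (2 ^ T), F σ (b, c)) atTop (𝓝 (lam σ c * T' σ c)) := by
  have h1 : HasSum (fun b => lam σ c * (lam σ b * J b c)) (lam σ c * T' σ c) :=
    ((summable_lam_mul hσ (fun n => abs_J_le n c)).hasSum).mul_left _
  have h2 := (h1.tendsto_sum_nat).comp tendsto_pow2
  refine h2.congr (fun T => ?_)
  simp only [Function.comp]
  apply sum_congr rfl
  intro b _
  unfold F; ring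

theorem D_le (hEP : StmtEP) (hLB : StmtLB) (hPS1 : StmtPS1) (hPS2 : StmtPS2) {C : ℝ} (hC : 0 < C)
    (hBL : BLC C) {L : ℝ} (hL : 1 ≤ L) (hσL : σ = 1 + 1 / L) (i0 : ℕ) :
    D σ ≤ 2 * ((1 + Real.log (2 ^ i0 : ℕ)) * Real.sqrt (Real.log (4 * (2 ^ i0 : ℕ)) + 4) + 2 * Z σ) +
      (1 + Real.log (2 ^ i0 : ℕ)) ^ 2 + 2 * C * ((20000 * L ^ 5) * (10 * hh i0)) := by
  have hσ : 1 < σ := by
    rw [hσL]
    have : 0 < 1 / L := by positivity
    linarith
  have hQ : 1 ≤ 2 ^ i0 := Nat.one_le_two_pow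
  have hU : Tendsto (fun T : ℕ => ∑ b ∈ range (2 ^ i0), ∑ c ∈ range (2 ^ T), F σ (b, c) +
      ((∑ c ∈ range (2 ^ i0), ∑ b ∈ range (2 ^ T), F σ (b, c)) -
        ∑ c ∈ range (2 ^ i0), ∑ b ∈ range (2 ^ i0), F σ (b, c)) +
      2 * C * ((20000 * L ^ 5) * (10 * hh i0))) atTop
      (𝓝 (∑ b ∈ range (2 ^ i0), lam σ b * T σ b +
      ((∑ c ∈ range (2 ^ i0), lam σ c * T' σ c) -
        ∑ c ∈ range (2 ^ i0), ∑ b ∈ range (2 ^ i0), F σ (b, c)) +
      2 * C * ((20000 * L ^ 5) * (10 * hh i0)))) := by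
    refine Tendsto.add (Tendsto.add ?_ (Tendsto.sub ?_ tendsto_const_nhds)) tendsto_const_nhds
    · exact tendsto_finsetSum _ fun b _ => tendsto_row hσ b
    · exact tendsto_finsetSum _ fun c _ => tendsto_col hσ c
  have hle : D σ ≤ ∑ b ∈ range (2 ^ i0), lam σ b * T σ b +
      ((∑ c ∈ range (2 ^ i0), lam σ c * T' σ c) -
        ∑ c ∈ range (2 ^ i0), ∑ b ∈ range (2 ^ i0), F σ (b, c)) +
      2 * C * ((20000 * L ^ 5) * (10 * hh i0)) := by
    apply le_of_tendsto_of_tendsto (tendsto_sq hσ) hU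
    filter_upwards [eventually_ge_atTop i0] with T hT
    rw [split_sq i0 T hT (fun b c => F σ (b, c))]
    have h1 := D3_le hC hBL hPS1 hPS2 hσ hT
    have h2 := (le_abs_self _).trans h1
    have h3 : (∑ j ∈ range T, gg σ j) * ∑ i ∈ Ico i0 T, hh i ≤ (20000 * L ^ 5) * (10 * hh i0) := by
      apply mul_le_mul (sum_gg_le hL hσL T) (sum_hh_le i0 T) (sum_nonneg fun i _ => hh_nonneg i)
      positivity
    have h4 : 2 * C * ((∑ j ∈ range T, gg σ j) * ∑ i ∈ Ico i0 T, hh i) ≤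
        2 * C * ((20000 * L ^ 5) * (10 * hh i0)) := mul_le_mul_of_nonneg_left h3 (by positivity)
    linarith
  refine hle.trans ?_
  have h1 := sum_lam_T hσ hQ (T_le_Z hσ) (fun b hb hsq => T_le hEP hLB hPS1 hσ hb hsq)
  have h2 := sum_lam_T hσ hQ (T'_le_Z hσ) (fun b hb hsq => T'_le hEP hLB hPS2 hσ hb hsq)
  have h3 : -(∑ c ∈ range (2 ^ i0), ∑ b ∈ range (2 ^ i0), F σ (b, c)) ≤
      (1 + Real.log (2 ^ i0 : ℕ)) ^ 2 := by
    have e1 := sum_inv_le hQ
    have e0 : 0 ≤ ∑ b ∈ range (2 ^ i0), 1 / (b : ℝ) := sum_nonneg fun b _ => by positivity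
    have e2 : -(∑ c ∈ range (2 ^ i0), ∑ b ∈ range (2 ^ i0), F σ (b, c)) ≤
        ∑ c ∈ range (2 ^ i0), ∑ b ∈ range (2 ^ i0), (1 / (c : ℝ)) * (1 / (b : ℝ)) := by
      rw [← sum_neg_distrib]
      apply sum_le_sum
      intro c _
      rw [← sum_neg_distrib]
      apply sum_le_sum
      intro b _
      unfold F
      have e3 : -(lam σ b * lam σ c * J b c) ≤ lam σ b * lam σ c := by
        have := abs_J_le b c
        rw [abs_le] at this
        have h5 := mul_nonneg (lam_nonneg σ b) (lam_nonneg σ c)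
        nlinarith [this.1]
      refine e3.trans ?_
      rw [mul_comm]
      exact mul_le_mul (lam_le_inv hσ.le c) (lam_le_inv hσ.le b) (lam_nonneg σ b) (by positivity)
    refine e2.trans ?_
    rw [← sum_mul_sum]
    rw [sq]
    exact mul_le_mul e1 e1 e0 (e0.trans e1)
  linarith

theorem stmtFirst (hEP : StmtEP) (hLB : StmtLB) (hPS1 : StmtPS1) (hPS2 : StmtPS2) (hBL : StmtBL) :
    StmtFirst := by
  obtain ⟨C, hC, hBL⟩ := hBL
  refine ⟨Real.exp 1 * ((400000 * C + 700000) * 2 * 3), by positivity, fun Y hY => ?_⟩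
  have hlogY : Real.log 2 ≤ Real.log Y := Real.log_le_log (by norm_num) (by exact_mod_cast hY)
  have hlog2 := Real.log_two_gt_d9
  set L : ℝ := 1 + Real.log Y with hLdef
  have hL : 1 ≤ L := by linarith
  have hL0 : 0 < L := by linarith
  set σ : ℝ := 1 + 1 / L with hσ
  have hσ1 : 1 < σ := by
    have : 0 < 1 / L := by positivity
    linarith
  refine (rankin hY rfl).trans ?_
  have hZ : Z σ ≤ Real.sqrt (1 + L) := by
    have := Z_le hEP hσ1
    have e : 1 + 1 / (σ - 1) = 1 + L := by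
      rw [hσ]; field_simp; ring
    rwa [e] at this
  have hsq : Real.sqrt (1 + L) ≤ 2 * Real.sqrt L := by
    rw [show (2:ℝ) * Real.sqrt L = Real.sqrt (4 * L) by
      rw [Real.sqrt_mul (by norm_num), show (4:ℝ) = 2 ^ 2 by norm_num, Real.sqrt_sq (by norm_num)]]
    exact Real.sqrt_le_sqrt (by linarith)
  have hsL1 : 1 ≤ Real.sqrt L := by
    rw [show (1:ℝ) = Real.sqrt 1 by simp]
    exact Real.sqrt_le_sqrt hL
  -- choice of `i0`
  set i0 : ℕ := ⌈30 * Real.logb 2 L⌉₊ with hi0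
  have hlb : 0 ≤ Real.logb 2 L := Real.logb_nonneg (by norm_num) hL
  have h1 : hh i0 * L ^ 5 ≤ 1 := by
    unfold hh
    have h2 : L ^ 5 ≤ (2:ℝ) ^ ((i0:ℝ) / 6) := by
      calc L ^ 5 = ((2:ℝ) ^ (Real.logb 2 L)) ^ 5 := by
            rw [Real.rpow_logb (by norm_num) (by norm_num) hL0]
        _ = (2:ℝ) ^ (5 * Real.logb 2 L) := by
            rw [← Real.rpow_natCast, ← Real.rpow_mul (by norm_num)]
            congr 1; push_cast; ring
        _ ≤ (2:ℝ) ^ ((i0:ℝ) / 6) := by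
            apply Real.rpow_le_rpow_of_exponent_le (by norm_num)
            have := Nat.le_ceil (30 * Real.logb 2 L)
            rw [← hi0] at this
            linarith
    rw [Real.rpow_neg (by norm_num)]
    rw [inv_mul_le_iff₀ (by positivity)]
    linarith
  have h2 : Real.log ((2 ^ i0 : ℕ) : ℝ) ≤ 30 * Real.log L + 1 := by
    push_cast
    rw [Real.log_pow]
    have h3 : (i0 : ℝ) ≤ 30 * Real.logb 2 L + 1 := (Nat.ceil_lt_add_one (by positivity)).le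
    have h4 : Real.logb 2 L * Real.log 2 = Real.log L := by
      unfold Real.logb; field_simp
    have h5 : Real.log 2 ≤ 1 := by have := Real.log_two_lt_d9; linarith
    have h6 : (0:ℝ) < Real.log 2 := by linarith
    calc (i0:ℝ) * Real.log 2 ≤ (30 * Real.logb 2 L + 1) * Real.log 2 := by gcongr
      _ = 30 * (Real.logb 2 L * Real.log 2) + Real.log 2 := by ring
      _ ≤ _ := by rw [h4]; linarith
  have hlogL : Real.log L ≤ 4 * L ^ ((1:ℝ)/4) := by
    have := Real.log_le_rpow_div hL0.le (by norm_num : (0:ℝ) < 1/4)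
    linarith
  have hq1 : 1 ≤ L ^ ((1:ℝ)/4) := Real.one_le_rpow hL (by norm_num)
  have hq2 : (L ^ ((1:ℝ)/4)) ^ 2 = Real.sqrt L := by
    rw [← Real.rpow_natCast, ← Real.rpow_mul hL0.le, Real.sqrt_eq_rpow]
    norm_num
  have hQ0 : 0 ≤ Real.log ((2 ^ i0 : ℕ) : ℝ) := Real.log_natCast_nonneg _
  have h3 : (1 + Real.log ((2 ^ i0 : ℕ) : ℝ)) ^ 2 ≤ 15000 * Real.sqrt L := by
    have h4 : 1 + Real.log ((2 ^ i0 : ℕ) : ℝ) ≤ 122 * L ^ ((1:ℝ)/4) := by linarith
    calc (1 + Real.log ((2 ^ i0 : ℕ) : ℝ)) ^ 2 ≤ (122 * L ^ ((1:ℝ)/4)) ^ 2 := by gcongr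
      _ = 14884 * (L ^ ((1:ℝ)/4)) ^ 2 := by ring
      _ ≤ _ := by rw [hq2]; linarith [Real.sqrt_nonneg L]
  have h5 : Real.sqrt (Real.log (4 * ((2 ^ i0 : ℕ) : ℝ)) + 4) ≤ 6 * (1 + Real.log ((2 ^ i0 : ℕ) : ℝ)) := by
    have h6 : Real.log (4 * ((2 ^ i0 : ℕ) : ℝ)) ≤ 2 + Real.log ((2 ^ i0 : ℕ) : ℝ) := by
      rw [Real.log_mul (by norm_num) (by positivity)]
      have : Real.log 4 = 2 * Real.log 2 := by
        rw [show (4:ℝ) = 2 ^ 2 by norm_num, Real.log_pow]; push_cast; ring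
      rw [this]
      have := Real.log_two_lt_d9
      linarith
    rw [Real.sqrt_le_left (by positivity)]
    nlinarith
  have h7 : (1 + Real.log ((2 ^ i0 : ℕ) : ℝ)) * Real.sqrt (Real.log (4 * ((2 ^ i0 : ℕ) : ℝ)) + 4) ≤
      90000 * Real.sqrt L := by
    calc _ ≤ (1 + Real.log ((2 ^ i0 : ℕ) : ℝ)) * (6 * (1 + Real.log ((2 ^ i0 : ℕ) : ℝ))) := by gcongr
      _ = 6 * (1 + Real.log ((2 ^ i0 : ℕ) : ℝ)) ^ 2 := by ring
      _ ≤ _ := by linarith
  have hD := D_le hEP hLB hPS1 hPS2 hC hBL hL hσ i0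
  have h8 : 2 * C * ((20000 * L ^ 5) * (10 * hh i0)) ≤ 400000 * C := by
    calc _ = 400000 * C * (hh i0 * L ^ 5) := by ring
      _ ≤ 400000 * C * 1 := by gcongr
      _ = _ := by ring
  have hD2 : D σ ≤ (400000 * C + 700000) * Real.sqrt L := by
    have h9 : 400000 * C ≤ 400000 * C * Real.sqrt L := by
      apply le_mul_of_one_le_right (by positivity) hsL1
    have h10 : Z σ ≤ 2 * Real.sqrt L := hZ.trans hsq
    nlinarith
  have h11 : D σ * Z σ ≤ (400000 * C + 700000) * 2 * L := by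
    calc D σ * Z σ ≤ ((400000 * C + 700000) * Real.sqrt L) * Z σ :=
          mul_le_mul_of_nonneg_right hD2 (Z_nonneg σ)
      _ ≤ ((400000 * C + 700000) * Real.sqrt L) * (2 * Real.sqrt L) := by
          gcongr
          exact hZ.trans hsq
      _ = (400000 * C + 700000) * 2 * (Real.sqrt L * Real.sqrt L) := by ring
      _ = _ := by rw [Real.mul_self_sqrt hL0.le]
  have h12 : L ≤ 3 * Real.log Y := by
    rw [hLdef]; linarith
  calc Real.exp 1 * (D σ * Z σ) ≤ Real.exp 1 * ((400000 * C + 700000) * 2 * L) := by gcongr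
    _ ≤ Real.exp 1 * ((400000 * C + 700000) * 2 * (3 * Real.log Y)) := by gcongr
    _ = _ := by ring

end Vale.Agent.P017.R2.H985
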