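import Vale.Agent.P017.R2.H985.TB

open Finset

namespace Vale.Agent.P017.R2.H985

variable {σ : ℝ}

theorem lam_blk (hσ : 1 < σ) {i n : ℕ} (h : 2 ^ i ≤ n) : |(2:ℝ) ^ ((i:ℝ) * σ) * lam σ n| ≤ 1 := by
  rw [abs_of_nonneg (mul_nonneg (by positivity) (lam_nonneg σ n))]
  have hn : (0:ℝ) < n := by
    have : 0 < n := lt_of_lt_of_le (by positivity) h
    exact_mod_cast this
  have h1 : lam σ n ≤ ((2:ℝ) ^ ((i:ℝ) * σ))⁻¹ := by
    refine (lam_le σ n).trans ?_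
    have h2 : ((2:ℝ) ^ (i:ℝ)) ≤ n := by
      rw [Real.rpow_natCast]; exact_mod_cast h
    rw [Real.rpow_neg hn.le]
    apply inv_anti₀ (by positivity)
    rw [Real.rpow_mul (by norm_num)]
    exact Real.rpow_le_rpow (by positivity) h2 (by linarith)
  calc (2:ℝ) ^ ((i:ℝ) * σ) * lam σ n ≤ (2:ℝ) ^ ((i:ℝ) * σ) * ((2:ℝ) ^ ((i:ℝ) * σ))⁻¹ := by gcongr
    _ = 1 := mul_inv_cancel₀ (by positivity)

/-- the conclusion of `StmtBL` with its constant -/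
def BLC (C : ℝ) : Prop := ∀ χ : ℕ → ℕ → ℤ, (∀ x n, |χ x n| ≤ 1) →
  (∀ x n n', χ x (n * n') = χ x n * χ x n') →
  (∀ x x' N N' : ℕ, Odd x → Odd x' → ¬ IsSquare (x * x') →
    |∑ n ∈ Ioc N N', χ x n * χ x' n| ≤ 4 * x * x') →
  ∀ i j : ℕ, i ≤ j → ∀ α β : ℕ → ℝ, (∀ n, |α n| ≤ 1) → (∀ n, |β n| ≤ 1) → (∀ n, Even n → α n = 0) →
    |∑ x ∈ Ico (2 ^ i) (2 ^ (i + 1)), ∑ n ∈ Ico (2 ^ j) (2 ^ (j + 1)), α x * β n * χ x n| ≤
      C * 2 ^ i * 2 ^ j * (2 : ℝ) ^ (-((i : ℝ) / 6)) * ((j : ℝ) + 1) ^ 4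

noncomputable def gg (σ : ℝ) (j : ℕ) : ℝ := (2:ℝ) ^ (-((σ - 1) * j)) * ((j : ℝ) + 1) ^ 4
noncomputable def hh (i : ℕ) : ℝ := (2:ℝ) ^ (-((i : ℝ) / 6))

theorem gg_nonneg (σ : ℝ) (j : ℕ) : 0 ≤ gg σ j := by unfold gg; positivity
theorem hh_nonneg (i : ℕ) : 0 ≤ hh i := by unfold hh; positivity

theorem gen_blk {C : ℝ} (hC : 0 < C) (hBL : BLC C) (hσ : 1 < σ) (χ : ℕ → ℕ → ℤ)
    (hχ1 : ∀ x n, |χ x n| ≤ 1) (hχm : ∀ x n n', χ x (n * n') = χ x n * χ x n')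
    (hχs : ∀ x x' N N' : ℕ, Odd x → Odd x' → ¬ IsSquare (x * x') →
      |∑ n ∈ Ioc N N', χ x n * χ x' n| ≤ 4 * x * x') {i j : ℕ} (hij : i ≤ j) :
    |∑ x ∈ Ico (2 ^ i) (2 ^ (i + 1)), ∑ n ∈ Ico (2 ^ j) (2 ^ (j + 1)), lam σ x * lam σ n * χ x n| ≤
      C * (gg σ j * hh i) := by
  set A : ℝ := (2:ℝ) ^ ((i:ℝ) * σ) with hA
  set B : ℝ := (2:ℝ) ^ ((j:ℝ) * σ) with hB
  have hA0 : 0 < A := by positivity
  have hB0 : 0 < B := by positivity
  have h := hBL χ hχ1 hχm hχs i j hij (fun x => if 2 ^ i ≤ x then A * lam σ x else 0)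
    (fun n => if 2 ^ j ≤ n then B * lam σ n else 0)
    (by
      intro n
      split_ifs with h
      · exact lam_blk hσ h
      · simp)
    (by
      intro n
      split_ifs with h
      · exact lam_blk hσ h
      · simp)
    (by
      intro n hn
      rw [lam_even (Nat.not_odd_iff_even.mpr hn)]
      simp)
  have h1 : ∑ x ∈ Ico (2 ^ i) (2 ^ (i + 1)), ∑ n ∈ Ico (2 ^ j) (2 ^ (j + 1)),
      (if 2 ^ i ≤ x then A * lam σ x else 0) * (if 2 ^ j ≤ n then B * lam σ n else 0) * (χ x n : ℝ) =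
      (A * B) * ∑ x ∈ Ico (2 ^ i) (2 ^ (i + 1)), ∑ n ∈ Ico (2 ^ j) (2 ^ (j + 1)),
        lam σ x * lam σ n * χ x n := by
    rw [mul_sum]
    apply sum_congr rfl
    intro x hx
    rw [mul_sum]
    apply sum_congr rfl
    intro n hn
    rw [mem_Ico] at hx hn
    rw [if_pos hx.1, if_pos hn.1]
    ring
  rw [h1, abs_mul, abs_of_pos (mul_pos hA0 hB0)] at h
  have h2 : |∑ x ∈ Ico (2 ^ i) (2 ^ (i + 1)), ∑ n ∈ Ico (2 ^ j) (2 ^ (j + 1)),
      lam σ x * lam σ n * χ x n| ≤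
      (C * 2 ^ i * 2 ^ j * (2 : ℝ) ^ (-((i : ℝ) / 6)) * ((j : ℝ) + 1) ^ 4) / (A * B) := by
    rw [le_div_iff₀ (mul_pos hA0 hB0)]
    linarith
  refine h2.trans ?_
  rw [div_le_iff₀ (mul_pos hA0 hB0)]
  have h3 : (2:ℝ) ^ i ≤ A := by
    rw [hA, ← Real.rpow_natCast]
    apply Real.rpow_le_rpow_of_exponent_le (by norm_num)
    nlinarith [(Nat.cast_nonneg i : (0:ℝ) ≤ i)]
  have h4 : (2:ℝ) ^ j = (2:ℝ) ^ (-((σ - 1) * j)) * B := by
    rw [hB, ← Real.rpow_add (by norm_num), ← Real.rpow_natCast]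
    congr 1; ring
  unfold gg hh
  rw [h4]
  have h5 : 0 ≤ C * ((2:ℝ) ^ (-((σ - 1) * j)) * ((j : ℝ) + 1) ^ 4 * (2 : ℝ) ^ (-((i : ℝ) / 6))) * B := by
    positivity
  calc _ = (2:ℝ) ^ i * (C * ((2:ℝ) ^ (-((σ - 1) * j)) * ((j : ℝ) + 1) ^ 4 * (2 : ℝ) ^ (-((i : ℝ) / 6))) * B) := by
        ring
    _ ≤ A * (C * ((2:ℝ) ^ (-((σ - 1) * j)) * ((j : ℝ) + 1) ^ 4 * (2 : ℝ) ^ (-((i : ℝ) / 6))) * B) :=
        mul_le_mul_of_nonneg_right h3 h5
    _ = _ := by ring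

noncomputable def blk (σ : ℝ) (i j : ℕ) : ℝ :=
  ∑ b ∈ Ico (2 ^ i) (2 ^ (i + 1)), ∑ c ∈ Ico (2 ^ j) (2 ^ (j + 1)), F σ (b, c)

theorem blk_le1 {C : ℝ} (hC : 0 < C) (hBL : BLC C) (hPS1 : StmtPS1) (hσ : 1 < σ) {i j : ℕ}
    (hij : i ≤ j) : |blk σ i j| ≤ C * (gg σ j * hh i) := by
  have h := gen_blk hC hBL hσ k1 abs_k1 k1_mul (by
    intro x x' N N' hx hx' hsq
    have h1 := hPS1 (x * x') (Nat.odd_mul.mpr ⟨hx, hx'⟩) hsq N N'
    rw [sum_filter] at h1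
    have h2 : ∑ n ∈ Ioc N N', k1 x n * k1 x' n =
        ∑ n ∈ Ioc N N', if Odd n then jacobiSym ((x * x' : ℕ) : ℤ) n else 0 := by
      apply sum_congr rfl
      intro n _
      unfold k1
      split_ifs
      · rw [Nat.cast_mul, jacobiSym.mul_left]
      · simp
    rw [h2]
    refine h1.trans (le_of_eq ?_)
    push_cast; ring) hij
  have h3 : blk σ i j = ∑ x ∈ Ico (2 ^ i) (2 ^ (i + 1)), ∑ n ∈ Ico (2 ^ j) (2 ^ (j + 1)),
      lam σ x * lam σ n * (k1 x n : ℝ) := by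
    unfold blk
    apply sum_congr rfl
    intro x _
    apply sum_congr rfl
    intro n _
    unfold F k1 J
    by_cases hn : Odd n
    · rw [if_pos hn]
    · simp [lam_even hn]
  rw [h3]
  exact h

theorem blk_le2 {C : ℝ} (hC : 0 < C) (hBL : BLC C) (hPS2 : StmtPS2) (hσ : 1 < σ) {i j : ℕ}
    (hij : j ≤ i) : |blk σ i j| ≤ C * (gg σ i * hh j) := by
  have h := gen_blk hC hBL hσ k2 abs_k2 k2_mul (by
    intro x x' N N' hx hx' hsq
    have h1 := (hPS2 (x * x') (Nat.odd_mul.mpr ⟨hx, hx'⟩) hsq N N').2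
    rw [sum_filter] at h1
    have := NeZero.mk hx.pos.ne'
    have := NeZero.mk hx'.pos.ne'
    have h2 : ∑ n ∈ Ioc N N', k2 x n * k2 x' n =
        ∑ n ∈ Ioc N N', if Odd n then jacobiSym n (x * x') else 0 := by
      apply sum_congr rfl
      intro n _
      unfold k2
      split_ifs
      · rw [jacobiSym.mul_right]
      · simp
    rw [h2]
    refine h1.trans ?_
    have : (0:ℤ) ≤ (x:ℤ) * x' := by positivity
    push_cast; linarith) hij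
  have h3 : blk σ i j = ∑ x ∈ Ico (2 ^ j) (2 ^ (j + 1)), ∑ n ∈ Ico (2 ^ i) (2 ^ (i + 1)),
      lam σ x * lam σ n * (k2 x n : ℝ) := by
    unfold blk
    rw [sum_comm]
    apply sum_congr rfl
    intro x _
    apply sum_congr rfl
    intro n _
    unfold F k2 J
    by_cases hn : Odd n
    · rw [if_pos hn]; ring
    · simp [lam_even hn]
  rw [h3]
  exact h

theorem sum_dyadic (f : ℕ → ℝ) (i0 : ℕ) : ∀ T, i0 ≤ T →
    ∑ n ∈ Ico (2 ^ i0) (2 ^ T), f n = ∑ i ∈ Ico i0 T, ∑ n ∈ Ico (2 ^ i) (2 ^ (i + 1)), f n := by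
  intro T hT
  induction T, hT using Nat.le_induction with
  | base => simp
  | succ T hT ih =>
    rw [sum_Ico_succ_top hT, ← ih, sum_Ico_consecutive _ (Nat.pow_le_pow_right (by norm_num) hT)
      (Nat.pow_le_pow_right (by norm_num) (by omega))]

theorem D3_le {C : ℝ} (hC : 0 < C) (hBL : BLC C) (hPS1 : StmtPS1) (hPS2 : StmtPS2) (hσ : 1 < σ)
    {i0 T : ℕ} (hT : i0 ≤ T) :
    |∑ b ∈ Ico (2 ^ i0) (2 ^ T), ∑ c ∈ Ico (2 ^ i0) (2 ^ T), F σ (b, c)| ≤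
      2 * C * ((∑ j ∈ range T, gg σ j) * ∑ i ∈ Ico i0 T, hh i) := by
  have h1 : ∑ b ∈ Ico (2 ^ i0) (2 ^ T), ∑ c ∈ Ico (2 ^ i0) (2 ^ T), F σ (b, c) =
      ∑ i ∈ Ico i0 T, ∑ j ∈ Ico i0 T, blk σ i j := by
    rw [sum_dyadic _ i0 T hT]
    apply sum_congr rfl
    intro i _
    have : ∀ b, ∑ c ∈ Ico (2 ^ i0) (2 ^ T), F σ (b, c) =
        ∑ j ∈ Ico i0 T, ∑ c ∈ Ico (2 ^ j) (2 ^ (j + 1)), F σ (b, c) := fun b =>
      sum_dyadic _ i0 T hT
    simp_rw [this]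
    rw [sum_comm]
    rfl
  rw [h1]
  have h2 : ∀ i ∈ Ico i0 T, ∀ j ∈ Ico i0 T, |blk σ i j| ≤ C * (gg σ j * hh i + gg σ i * hh j) := by
    intro i _ j _
    have e1 : 0 ≤ gg σ j * hh i := mul_nonneg (gg_nonneg _ _) (hh_nonneg _)
    have e2 : 0 ≤ gg σ i * hh j := mul_nonneg (gg_nonneg _ _) (hh_nonneg _)
    rcases le_total i j with h | h
    · refine (blk_le1 hC hBL hPS1 hσ h).trans ?_
      apply mul_le_mul_of_nonneg_left _ hC.le
      linarith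
    · refine (blk_le2 hC hBL hPS2 hσ h).trans ?_
      apply mul_le_mul_of_nonneg_left _ hC.le
      linarith
  have h3 : |∑ i ∈ Ico i0 T, ∑ j ∈ Ico i0 T, blk σ i j| ≤
      ∑ i ∈ Ico i0 T, ∑ j ∈ Ico i0 T, C * (gg σ j * hh i + gg σ i * hh j) := by
    refine (abs_sum_le_sum_abs _ _).trans (sum_le_sum fun i hi => ?_)
    exact (abs_sum_le_sum_abs _ _).trans (sum_le_sum fun j hj => h2 i hi j hj)
  refine h3.trans ?_
  have h4 : ∑ i ∈ Ico i0 T, ∑ j ∈ Ico i0 T, C * (gg σ j * hh i + gg σ i * hh j) =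
      2 * C * ((∑ j ∈ Ico i0 T, gg σ j) * ∑ i ∈ Ico i0 T, hh i) := by
    have e1 : ∑ i ∈ Ico i0 T, ∑ j ∈ Ico i0 T, gg σ j * hh i =
        (∑ j ∈ Ico i0 T, gg σ j) * ∑ i ∈ Ico i0 T, hh i := by
      rw [sum_mul_sum, sum_comm]
    have e2 : ∑ i ∈ Ico i0 T, ∑ j ∈ Ico i0 T, gg σ i * hh j =
        (∑ j ∈ Ico i0 T, gg σ j) * ∑ i ∈ Ico i0 T, hh i := by
      rw [sum_mul_sum]
    simp_rw [← mul_sum, sum_add_distrib]
    rw [e1, e2]; ring
  rw [h4]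
  apply mul_le_mul_of_nonneg_left _ (by positivity)
  apply mul_le_mul_of_nonneg_right _ (sum_nonneg fun i _ => hh_nonneg i)
  apply sum_le_sum_of_subset_of_nonneg
  · intro j hj; rw [mem_Ico] at hj; rw [mem_range]; exact hj.2
  · intro j _ _; exact gg_nonneg _ _

theorem sum_hh_le (i0 T : ℕ) : ∑ i ∈ Ico i0 T, hh i ≤ 10 * hh i0 := by
  have h0 : (2:ℝ) ^ (-(1/6 : ℝ)) ≤ 9/10 := by
    have h1 : ((2:ℝ) ^ (-(1/6 : ℝ))) ^ (6:ℕ) = 1/2 := by
      rw [← Real.rpow_natCast, ← Real.rpow_mul (by norm_num)]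
      norm_num
    by_contra h
    push Not at h
    have h2 : ((9:ℝ)/10) ^ 6 < ((2:ℝ) ^ (-(1/6 : ℝ))) ^ 6 := by gcongr
    rw [h1] at h2
    norm_num at h2
  have h1 : ∀ k : ℕ, hh (i0 + k) ≤ hh i0 * (9/10) ^ k := by
    intro k
    induction k with
    | zero => simp
    | succ k ih =>
      have : hh (i0 + (k + 1)) = hh (i0 + k) * (2:ℝ) ^ (-(1/6 : ℝ)) := by
        unfold hh
        rw [← Real.rpow_add (by norm_num)]
        congr 1
        push_cast; ring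
      rw [this, pow_succ, ← mul_assoc]
      exact mul_le_mul ih h0 (by positivity) (mul_nonneg (hh_nonneg _) (by positivity))
  rw [sum_Ico_eq_sum_range]
  refine (sum_le_sum fun k _ => h1 k).trans ?_
  rw [← mul_sum, mul_comm]
  apply mul_le_mul_of_nonneg_right _ (hh_nonneg i0)
  rw [geom_sum_eq (by norm_num)]
  have : (0:ℝ) ≤ (9/10 : ℝ) ^ (T - i0) := by positivity
  rw [div_le_iff_of_neg (by norm_num)]
  linarith

theorem pow4_le (x : ℝ) (hx : 0 ≤ x) : x ^ 4 ≤ 24 * Real.exp x := by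
  have h := Real.pow_div_factorial_le_exp x hx 4
  have h4 : ((4).factorial : ℝ) = 24 := by norm_num [Nat.factorial]
  rw [h4, div_le_iff₀ (by norm_num)] at h
  linarith

theorem sum_gg_le {L : ℝ} (hL : 1 ≤ L) (hσL : σ = 1 + 1 / L) (T : ℕ) :
    ∑ j ∈ range T, gg σ j ≤ 20000 * L ^ 5 := by
  have hL0 : 0 < L := by linarith
  set δ : ℝ := Real.log 2 / L with hδ
  have hlog2 : 0 < Real.log 2 := Real.log_pos (by norm_num)
  have hδ0 : 0 < δ := div_pos hlog2 hL0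
  have hδ1 : δ ≤ 1 := by
    rw [hδ, div_le_one hL0]
    have := Real.log_two_lt_d9
    linarith
  have h1 : 2 / δ ≤ 3 * L := by
    rw [hδ, div_div_eq_mul_div, div_le_iff₀ hlog2]
    have := Real.log_two_gt_d9
    nlinarith
  have h2 : ∀ j : ℕ, gg σ j ≤ 24 * (2 / δ) ^ 4 * Real.exp (1/2) * Real.exp (-(δ/2)) ^ j := by
    intro j
    have e1 : (2:ℝ) ^ (-((σ - 1) * j)) = Real.exp (-(δ * j)) := by
      rw [Real.rpow_def_of_pos (by norm_num), hσL, hδ]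
      congr 1
      field_simp
      ring
    have e2 : ((j:ℝ) + 1) ^ 4 = (2 / δ) ^ 4 * (δ * (j + 1) / 2) ^ 4 := by
      field_simp
    have e3 : (δ * (j + 1) / 2) ^ 4 ≤ 24 * Real.exp (δ * (j + 1) / 2) := pow4_le _ (by positivity)
    unfold gg
    rw [e1, e2]
    have e4 : Real.exp (-(δ * j)) * Real.exp (δ * (j + 1) / 2) ≤ Real.exp (1/2) * Real.exp (-(δ/2)) ^ j := by
      rw [← Real.exp_add, ← Real.exp_nat_mul, ← Real.exp_add]
      apply Real.exp_le_exp.mpr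
      nlinarith
    calc Real.exp (-(δ * j)) * ((2 / δ) ^ 4 * (δ * (j + 1) / 2) ^ 4) ≤
        Real.exp (-(δ * j)) * ((2 / δ) ^ 4 * (24 * Real.exp (δ * (j + 1) / 2))) := by gcongr
      _ = 24 * (2 / δ) ^ 4 * (Real.exp (-(δ * j)) * Real.exp (δ * (j + 1) / 2)) := by ring
      _ ≤ 24 * (2 / δ) ^ 4 * (Real.exp (1/2) * Real.exp (-(δ/2)) ^ j) := by gcongr
      _ = _ := by ring
  refine (sum_le_sum fun j _ => h2 j).trans ?_
  rw [← mul_sum]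
  have h3 : ∑ j ∈ range T, Real.exp (-(δ/2)) ^ j ≤ 4 * L := by
    have hr : Real.exp (-(δ/2)) < 1 := by rw [Real.exp_lt_one_iff]; linarith
    have hr2 : Real.exp (-(δ/2)) ≤ 1 / (1 + δ/2) := by
      rw [Real.exp_neg, ← one_div]
      apply one_div_le_one_div_of_le (by positivity)
      linarith [Real.add_one_le_exp (δ/2)]
    rw [geom_sum_eq hr.ne]
    rw [div_le_iff_of_neg (by linarith)]
    have h5 : (0:ℝ) ≤ Real.exp (-(δ/2)) ^ T := by positivity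
    have h6 : 1 ≤ 4 * L * (1 - 1 / (1 + δ/2)) := by
      have h7 : 1 - 1 / (1 + δ/2) = (δ/2) / (1 + δ/2) := by field_simp; ring
      rw [h7]
      have h8 : 1 ≤ 3 * L * (δ/2) := by
        have := mul_le_mul_of_nonneg_right h1 (by positivity : (0:ℝ) ≤ δ/2)
        have h9 : 2 / δ * (δ / 2) = 1 := by field_simp
        linarith
      rw [mul_div_assoc', le_div_iff₀ (by positivity)]
      have h10 : 1 ≤ L := hL
      nlinarith
    nlinarith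
  have he : Real.exp (1/2) ≤ 2 := by
    have h9 := Real.exp_one_lt_d9
    have h10 : Real.exp (1/2) ^ 2 = Real.exp 1 := by
      rw [← Real.exp_nat_mul]; norm_num
    by_contra h
    push Not at h
    nlinarith
  have h4 : (2 / δ) ^ 4 ≤ (3 * L) ^ 4 := by gcongr
  calc 24 * (2 / δ) ^ 4 * Real.exp (1/2) * ∑ j ∈ range T, Real.exp (-(δ/2)) ^ j
      ≤ 24 * (3 * L) ^ 4 * 2 * (4 * L) := by
        have : (0:ℝ) ≤ ∑ j ∈ range T, Real.exp (-(δ/2)) ^ j := sum_nonneg fun j _ => by positivity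
        gcongr
    _ = 15552 * L ^ 5 := by ring
    _ ≤ 20000 * L ^ 5 := by
        have : 0 ≤ L ^ 5 := by positivity
        linarith

end Vale.Agent.P017.R2.H985
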