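import Vale.Agent.P017.R2.H985.Lam

open Finset

namespace Vale.Agent.P017.R2.H985

variable {σ : ℝ}

/-- real Jacobi symbol -/
noncomputable def J (b c : ℕ) : ℝ := (jacobiSym b c : ℝ)

theorem abs_J_le (b c : ℕ) : |J b c| ≤ 1 := by
  unfold J
  rcases jacobiSym.trichotomy (b : ℤ) c with h | h | h <;> rw [h] <;> simp

/-- `(b/1)+…`: the divisor sum of a real completely multiplicative symbol is nonnegative -/
theorem J_mul (b c c' : ℕ) (hc : c ≠ 0) (hc' : c' ≠ 0) : J b (c * c') = J b c * J b c' := by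
  have := NeZero.mk hc
  have := NeZero.mk hc'
  unfold J
  rw [jacobiSym.mul_right]
  push_cast; ring

theorem J_pow (b p k : ℕ) : J b (p ^ k) = J b p ^ k := by
  unfold J
  rw [jacobiSym.pow_right]
  push_cast; ring

noncomputable def fJ (b : ℕ) : ArithmeticFunction ℝ := ⟨fun c => if c = 0 then 0 else J b c, by simp⟩

theorem G_nonneg (b n : ℕ) : 0 ≤ ∑ c ∈ n.divisors, J b c := by
  rcases Nat.eq_zero_or_pos n with rfl | hn
  · simp
  have hm : (fJ b).IsMultiplicative := by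
    rw [ArithmeticFunction.IsMultiplicative.iff_ne_zero]
    refine ⟨?_, ?_⟩
    · show (if (1:ℕ) = 0 then (0:ℝ) else J b 1) = 1
      rw [if_neg one_ne_zero]
      unfold J; rw [jacobiSym.one_right]; simp
    · intro m n hm hn _
      show (if m * n = 0 then (0:ℝ) else J b (m * n)) = (if m = 0 then 0 else J b m) * (if n = 0 then 0 else J b n)
      rw [if_neg (mul_ne_zero hm hn), if_neg hm, if_neg hn, J_mul b m n hm hn]
  have hz : ((ArithmeticFunction.zeta : ArithmeticFunction ℕ) : ArithmeticFunction ℝ).IsMultiplicative :=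
    ArithmeticFunction.isMultiplicative_zeta.natCast
  have h1 : ∀ k : ℕ, k ≠ 0 → (fJ b * ((ArithmeticFunction.zeta : ArithmeticFunction ℕ) :
      ArithmeticFunction ℝ)) k = ∑ c ∈ k.divisors, J b c := by
    intro k hk
    rw [ArithmeticFunction.coe_mul_zeta_apply]
    apply sum_congr rfl
    intro c hc
    show (if c = 0 then (0:ℝ) else J b c) = _
    rw [if_neg (Nat.pos_of_mem_divisors hc).ne']
  rw [← h1 n hn.ne', (hm.mul hz).multiplicative_factorization _ hn.ne']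
  apply Finset.prod_nonneg
  intro p hp
  have hpp := Nat.prime_of_mem_primeFactors (by simpa using hp : p ∈ n.primeFactors)
  show 0 ≤ (fJ b * ((ArithmeticFunction.zeta : ArithmeticFunction ℕ) : ArithmeticFunction ℝ))
    (p ^ n.factorization p)
  rw [h1 _ (pow_ne_zero _ hpp.ne_zero), Nat.sum_divisors_prime_pow hpp]
  have h2 : J b p = 0 ∨ J b p = 1 ∨ J b p = -1 := by
    unfold J
    rcases jacobiSym.trichotomy (b : ℤ) p with h | h | h <;> rw [h] <;> simp
  generalize n.factorization p = v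
  simp_rw [J_pow]
  rcases h2 with h | h | h
  · rw [h]
    apply sum_nonneg
    intro k _
    positivity
  · rw [h]; simp; positivity
  · rw [h]
    rw [neg_one_geom_sum]
    split_ifs <;> norm_num

noncomputable def T (σ : ℝ) (b : ℕ) : ℝ := ∑' c, lam σ c * J b c
noncomputable def T' (σ : ℝ) (c : ℕ) : ℝ := ∑' b, lam σ b * J b c
noncomputable def Z (σ : ℝ) : ℝ := ∑' n, lam σ n
noncomputable def F (σ : ℝ) (x : ℕ × ℕ) : ℝ := lam σ x.1 * lam σ x.2 * J x.1 x.2
noncomputable def D (σ : ℝ) : ℝ := ∑' x : ℕ × ℕ, F σ x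

theorem summable_F (hσ : 1 < σ) : Summable (F σ) := by
  have h1 := Summable.mul_of_nonneg (summable_lam hσ) (summable_lam hσ) (lam_nonneg σ) (lam_nonneg σ)
  refine Summable.of_norm_bounded h1 (fun x => ?_)
  unfold F
  rw [Real.norm_eq_abs, abs_mul, abs_of_nonneg (mul_nonneg (lam_nonneg σ _) (lam_nonneg σ _))]
  exact mul_le_of_le_one_right (mul_nonneg (lam_nonneg σ _) (lam_nonneg σ _)) (abs_J_le _ _)

/-- triple sum -/
noncomputable def F3 (σ : ℝ) (x : (ℕ × ℕ) × ℕ) : ℝ := F σ x.1 * lam σ x.2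

theorem hasSum_F3 (hσ : 1 < σ) : HasSum (F3 σ) (D σ * Z σ) := by
  have h1 := summable_F hσ
  have h2 := summable_lam hσ
  have h3 : Summable (fun x : (ℕ × ℕ) × ℕ => F σ x.1 * lam σ x.2) := by
    apply summable_mul_of_summable_norm
    · exact h1.norm
    · exact h2.norm
  exact h1.hasSum.mul h2.hasSum h3

def proj (x : (ℕ × ℕ) × ℕ) : ℕ × ℕ := (x.1.1, x.1.2 * x.2)

theorem fiber (σ : ℝ) (b n : ℕ) : ∑' x : proj ⁻¹' {(b, n)}, F3 σ x =
    lam σ b * lam σ n * ∑ c ∈ n.divisors, J b c := by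
  rcases Nat.eq_zero_or_pos n with rfl | hn
  · rw [lam_zero, mul_zero, zero_mul]
    have : ∀ x : proj ⁻¹' {(b, 0)}, F3 σ x = 0 := by
      rintro ⟨⟨⟨b', c⟩, e⟩, hx⟩
      simp only [proj, Set.mem_preimage, Set.mem_singleton_iff, Prod.mk.injEq] at hx
      simp only [F3, F]
      rcases Nat.mul_eq_zero.mp hx.2 with h | h
      · rw [h, lam_zero]; ring
      · rw [h, lam_zero]; ring
    rw [tsum_congr this, tsum_zero]
  · have h1 : proj ⁻¹' {(b, n)} = ((n.divisorsAntidiagonal.image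
        (fun y : ℕ × ℕ => (((b, y.1), y.2) : (ℕ × ℕ) × ℕ)) : Finset _) : Set ((ℕ × ℕ) × ℕ)) := by
      ext ⟨⟨b', c⟩, e⟩
      simp only [proj, Set.mem_preimage, Set.mem_singleton_iff, Prod.mk.injEq, coe_image,
        Set.mem_image, mem_coe, Nat.mem_divisorsAntidiagonal, Prod.exists]
      constructor
      · rintro ⟨rfl, rfl⟩
        exact ⟨c, e, ⟨rfl, hn.ne'⟩, ⟨rfl, rfl⟩, rfl⟩
      · rintro ⟨c', e', ⟨h, _⟩, ⟨rfl, rfl⟩, rfl⟩
        exact ⟨rfl, h⟩
    rw [h1, Finset.tsum_subtype', Finset.sum_image (by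
      rintro ⟨a1, a2⟩ _ ⟨b1, b2⟩ _ h
      simp only [Prod.mk.injEq] at h
      rw [h.1.2, h.2])]
    have h2 : ∑ y ∈ n.divisorsAntidiagonal, F3 σ ((b, y.1), y.2) =
        ∑ y ∈ n.divisorsAntidiagonal, lam σ b * lam σ n * J b y.1 := by
      apply sum_congr rfl
      rintro ⟨c, e⟩ hy
      rw [Nat.mem_divisorsAntidiagonal] at hy
      simp only [F3, F]
      rw [← hy.1, lam_mul]
      ring
    rw [h2, ← mul_sum]
    congr 1
    exact Nat.sum_divisorsAntidiagonal (fun c _ => J b c)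

theorem hasSum_pairs (hσ : 1 < σ) :
    HasSum (fun x : ℕ × ℕ => lam σ x.1 * lam σ x.2 * ∑ c ∈ x.2.divisors, J x.1 c) (D σ * Z σ) := by
  have h1 := (hasSum_F3 hσ).tsum_fiberwise proj
  have h2 : (fun x : ℕ × ℕ => lam σ x.1 * lam σ x.2 * ∑ c ∈ x.2.divisors, J x.1 c) =
      fun c => ∑' x : proj ⁻¹' {c}, F3 σ x := funext fun x => (fiber σ x.1 x.2).symm
  rw [h2]
  exact h1

end Vale.Agent.P017.R2.H985
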