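import Vale.Agent.P017.H185.Fam

/-!
# P017: positive proportion of imaginary quadratic fields `K` with `X₀(15)(K)` finite

Interface of the modules (plan: progress row of helper985).
-/

open Finset

namespace Vale.Agent.P017.R2.H985

open Vale.Agent.P017.H185 (Redei)

/-- `1` if `(a/q) = -1`, else `0` -/
def bit (a : ℤ) (q : ℕ) : ZMod 2 := if jacobiSym a q = -1 then 1 else 0

/-- the prime factors of `m` -/
abbrev PF (m : ℕ) : Type := {q : ℕ // q ∈ m.primeFactors}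

/-- sign patterns on the prime factors of `m` -/
abbrev Pat (m : ℕ) : Type := PF m → ZMod 2

/-- the symbols `(p/q)`, `q ∣ m` -/
def sym (m p : ℕ) : Pat m := fun q => bit (p : ℤ) (q : ℕ)

/-- Rédei matrix of `m`, with the diagonal perturbed by `w`: row `q` (modulus), column `q'` -/
def Mat (m : ℕ) (w : Pat m) : Matrix (PF m) (PF m) (ZMod 2) := fun q q' =>
  if q' = q then w q + ∑ r ∈ univ.erase q, bit ((r : ℕ) : ℤ) (q : ℕ) else bit ((q' : ℕ) : ℤ) (q : ℕ)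

/-- corank -/
noncomputable def cork (m : ℕ) (w : Pat m) : ℕ :=
  Module.finrank (ZMod 2) (LinearMap.ker (Matrix.mulVecLin (Mat m w)))

/-- the vectors `φ i` separate the right and the left kernel -/
def Good (m : ℕ) (w : Pat m) {s : ℕ} (φ : Fin s → Pat m) : Prop :=
  cork m w = s ∧
  (∀ x : Pat m, Matrix.mulVec (Mat m w) x = 0 → (∀ i, dotProduct (φ i) x = 0) → x = 0) ∧
  (∀ r : Pat m, Matrix.vecMul r (Mat m w) = 0 → (∀ i, dotProduct (φ i) r = 0) → r = 0)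

/-- (M1) -/
def StmtRed : Prop := ∀ m : ℕ, Squarefree m → m.Coprime 30 → ∀ (s : ℕ) (p : Fin s → ℕ) (p' : ℕ),
  (∀ i, (p i).Prime ∧ p i % 4 = 1 ∧ ¬ p i ∣ m) → Function.Injective p →
  p'.Prime → p' ≠ 2 → ¬ p' ∣ m → (∀ i, p i ≠ p') →
  Good m ((∑ i, sym m (p i)) + sym m p') (fun i => sym m (p i)) →
  Redei (m * (∏ i, p i) * p')

open Classical in
/-- (M2a) -/
def StmtGood : Prop := ∀ (m : ℕ) (w : Pat m),
  Fintype.card (Pat m) ^ (cork m w) ≤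
    4 ^ (cork m w) * (univ.filter fun φ : Fin (cork m w) → Pat m => Good m w φ).card

/-- (M2b) -/
def StmtId : Prop := ∀ m : ℕ, Squarefree m → Odd m →
  ∑ w : Pat m, (2 : ℤ) ^ cork m w = ∑ b ∈ m.divisors, ∑ c ∈ (m / b).divisors, jacobiSym b c

/-- weighted character sum over the primes of `(N, 2N]` in the class `r` modulo `60` -/
noncomputable def Theta (N r c : ℕ) : ℝ :=
  ∑ p ∈ (Ioc N (2 * N)).filter (fun p => p.Prime ∧ p % 60 = r), Real.log p * (jacobiSym p c : ℝ)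

/-- (M2c) -/
def StmtEq : Prop := ∀ m N r : ℕ, Squarefree m → Odd m → m ≤ N → ∀ φ : Pat m,
  Theta N r 1 - ∑ c ∈ m.divisors.erase 1, |Theta N r c| ≤
    Fintype.card (Pat m) *
      ∑ p ∈ (Ioc N (2 * N)).filter (fun p => p.Prime ∧ p % 60 = r ∧ sym m p = φ), Real.log p

/-- (M6a) -/
def StmtCharSum : Prop := ∀ ε : ℝ, 0 < ε → ∃ N₀ : ℕ, ∀ N : ℕ, N₀ ≤ N → ∀ r : ℕ, r < 60 →
  r.Coprime 60 →
  ∑ c ∈ (Icc 2 N).filter (fun c => c ^ 4 ≤ N ∧ Squarefree c ∧ c.Coprime 30), |Theta N r c| / c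
    ≤ ε * N

/-- (M6b) -/
def StmtMain : Prop := ∃ N₀ : ℕ, ∀ N : ℕ, N₀ ≤ N → ∀ r : ℕ, r < 60 → r.Coprime 60 →
  (N : ℝ) / 20 ≤ Theta N r 1

/-- (M5) first moment -/
def StmtFirst : Prop := ∃ C : ℝ, 0 < C ∧ ∀ Y : ℕ, 2 ≤ Y →
  ∑ m ∈ (Icc 1 Y).filter (fun m => Squarefree m ∧ m.Coprime 30),
    (∑ b ∈ m.divisors, ∑ c ∈ (m / b).divisors, (jacobiSym b c : ℝ)) /
      (2 ^ m.primeFactors.card * m) ≤ C * Real.log Y

/-- (M7a) -/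
def StmtSqf : Prop := ∃ c : ℝ, 0 < c ∧ ∀ Y : ℕ, 2 ≤ Y →
  c * Real.log Y ≤ ∑ m ∈ (Icc 1 Y).filter (fun m => Squarefree m ∧ m.Coprime 30), 1 / (m : ℝ)

/-! ### Dirichlet series -/

/-- `2^{-Ω(n)} n^{-σ}` on odd `n` -/
noncomputable def lam (σ : ℝ) (n : ℕ) : ℝ :=
  if Odd n then (1 / 2 : ℝ) ^ (ArithmeticFunction.cardFactors n) * (n : ℝ) ^ (-σ) else 0

/-- (M3a) Euler product comparison -/
def StmtEP : Prop := ∀ χ : ℕ → ℤ, χ 1 = 1 → (∀ n, |χ n| ≤ 1) → (∀ n n', χ (n * n') = χ n * χ n') →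
  (∀ n, Even n → χ n = 0) → ∀ σ : ℝ, 1 < σ →
  0 ≤ ∑' n, lam σ n * χ n ∧ (∑' n, lam σ n * χ n) ^ 2 ≤ ∑' n : ℕ, (χ n : ℝ) * (n : ℝ) ^ (-σ)

/-- (M3b) bounded partial sums -/
def StmtLB : Prop := ∀ χ : ℕ → ℤ, (∀ n, |χ n| ≤ 1) → χ 0 = 0 → ∀ q : ℕ, 1 ≤ q →
  (∀ N : ℕ, |∑ n ∈ range N, χ n| ≤ q) → ∀ σ : ℝ, 1 < σ →
  ∑' n : ℕ, (χ n : ℝ) * (n : ℝ) ^ (-σ) ≤ Real.log q + 4

/-- (M3c) -/
def StmtPS1 : Prop := ∀ b : ℕ, Odd b → ¬ IsSquare b → ∀ N N' : ℕ,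
  |∑ n ∈ (Ioc N N').filter Odd, jacobiSym b n| ≤ 4 * b

/-- (M3d) -/
def StmtPS2 : Prop := ∀ c : ℕ, Odd c → ¬ IsSquare c → ∀ N N' : ℕ,
  |∑ n ∈ Ioc N N', jacobiSym n c| ≤ c ∧ |∑ n ∈ (Ioc N N').filter Odd, jacobiSym n c| ≤ 2 * c

/-- (M4) bilinear sums -/
def StmtBL : Prop := ∃ C : ℝ, 0 < C ∧ ∀ χ : ℕ → ℕ → ℤ, (∀ x n, |χ x n| ≤ 1) →
  (∀ x n n', χ x (n * n') = χ x n * χ x n') →
  (∀ x x' N N' : ℕ, Odd x → Odd x' → ¬ IsSquare (x * x') →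
    |∑ n ∈ Ioc N N', χ x n * χ x' n| ≤ 4 * x * x') →
  ∀ i j : ℕ, i ≤ j → ∀ α β : ℕ → ℝ, (∀ n, |α n| ≤ 1) → (∀ n, |β n| ≤ 1) → (∀ n, Even n → α n = 0) →
    |∑ x ∈ Ico (2 ^ i) (2 ^ (i + 1)), ∑ n ∈ Ico (2 ^ j) (2 ^ (j + 1)), α x * β n * χ x n| ≤
      C * 2 ^ i * 2 ^ j * (2 : ℝ) ^ (-((i : ℝ) / 6)) * ((j : ℝ) + 1) ^ 4

open Classical in
/-- final statement -/
def StmtFinal : Prop := ∀ r : ℕ, r < 60 → r.Coprime 60 → ∃ c : ℝ, 0 < c ∧ ∃ X₀ : ℕ, ∀ X : ℕ,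
  X₀ ≤ X → c * X ≤ ((Icc 1 X).filter (fun d => Squarefree d ∧ d % 60 = r ∧ Redei d)).card

end Vale.Agent.P017.R2.H985
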