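import Vale.Agent.P017.R2.H985.Defs

/-!
# P017: interface of the final assembly (modules M7b, M7c, M7d, M7e)
-/

open Finset

namespace Vale.Agent.P017.R2.H985

/-- `m` is exceptional for the interval `(N, 2N]` and the class `r` modulo `60` -/
def Exc (N r m : ℕ) : Prop := Theta N r 1 < 2 * ∑ c ∈ m.divisors.erase 1, |Theta N r c|

/-- primes of `(N, 2N]` in the class `r` modulo `60` -/
def Pr (N r : ℕ) : Finset ℕ := (Ioc N (2 * N)).filter (fun p => p.Prime ∧ p % 60 = r)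

open Classical in
/-- (M7b) from `StmtCharSum` and `StmtMain`: few exceptional `m` in each dyadic range -/
def StmtExc : Prop := ∀ ε : ℝ, 0 < ε → ∃ N₀ : ℕ, ∀ N : ℕ, N₀ ≤ N → ∀ k : ℕ,
  2 ^ (4 * (k + 1)) ≤ N → ∀ r : ℕ, r < 60 → r.Coprime 60 →
  ∑ m ∈ (Ico (2 ^ k) (2 ^ (k + 1))).filter
    (fun m => Squarefree m ∧ m.Coprime 30 ∧ Exc N r m), 1 / (m : ℝ) ≤ ε

/-- (M7c) from `StmtFirst`, `StmtSqf` and `StmtId`: a corank `s ≤ K` with positive weight -/
def StmtRank : Prop := ∃ K : ℕ, ∃ c : ℝ, 0 < c ∧ ∀ Y : ℕ, 2 ≤ Y → ∃ s ≤ K,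
  c * Real.log Y ≤ ∑ m ∈ (Icc 1 Y).filter (fun m => Squarefree m ∧ m.Coprime 30),
    ((univ.filter fun w : Pat m => cork m w = s).card : ℝ) / (Fintype.card (Pat m) * m)

open Classical in
/-- (M7d) from `StmtEq`, `StmtMain` and `StmtGood`: weighted count of the good primes for one `m` -/
def StmtCount : Prop := ∃ N₀ : ℕ, ∀ (m s : ℕ) (N : Fin s → ℕ) (N' r' : ℕ),
  Squarefree m → m.Coprime 30 → r' < 60 → r'.Coprime 60 →
  (∀ i, N₀ ≤ N i ∧ m ≤ N i ∧ ¬ Exc (N i) 1 m) → N₀ ≤ N' → m ≤ N' → ¬ Exc N' r' m →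
  ((univ.filter fun w : Pat m => cork m w = s).card : ℝ) / Fintype.card (Pat m) *
      ((∏ i, (N i : ℝ)) * N') / (4 ^ s * 40 ^ (s + 1)) ≤
    ∑ p ∈ Fintype.piFinset (fun i => Pr (N i) 1),
      ∑ p' ∈ (Pr N' r').filter (fun p' =>
        Good m ((∑ i, sym m (p i)) + sym m p') (fun i => sym m (p i))),
        (∏ i, Real.log (p i)) * Real.log p'

/-- (M7e) final assembly -/
def StmtAsm : Prop := StmtRed → StmtExc → StmtRank → StmtCount → StmtFinal

end Vale.Agent.P017.R2.H985
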