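import Vale.Agent.P017.R2.H420.All

/-!
# P017: positive proportion, from Redei's condition to the finiteness of `X₀(15)(K)`
-/

open Finset NumberField

namespace Vale.Agent.P017.R2.H985

open Vale.Agent.P017.H185 (X015 Redei exists_QF_of_sqrt)

universe u

/-- finiteness from Rédei's condition, `d ≡ 23, 47 mod 60` -/
theorem finite_of_redei {d : ℕ} (hd : Squarefree d) (hr : d % 60 = 23 ∨ d % 60 = 47) (hR : Redei d)
    (K : Type u) [Field K] [NumberField K] [Algebra.IsQuadraticExtension ℚ K] (θ : K)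
    (hθ : θ ^ 2 = -(d : K)) : Finite (X015.baseChange K).toAffine.Point := by
  obtain ⟨q⟩ := exists_QF_of_sqrt hd hθ
  apply q.finite_of_cond (q.no_order_four (by omega) hR)
  · intro _ h
    have h1 : ((d : ℕ) : ZMod 3) = ((1 : ℕ) : ZMod 3) := by rw [h]; simp
    have h2 := (ZMod.natCast_eq_natCast_iff _ _ _).mp h1
    have h3 : d % 3 = 1 % 3 := h2
    omega
  · intro _ h
    rcases hr with hr | hr
    · have h1 : ((d : ℕ) : ZMod 5) = ((3 : ℕ) : ZMod 5) := by
        rw [ZMod.natCast_eq_natCast_iff]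
        show d % 5 = 3 % 5
        omega
      rw [h1] at h
      revert h
      decide
    · have h1 : ((d : ℕ) : ZMod 5) = ((2 : ℕ) : ZMod 5) := by
        rw [ZMod.natCast_eq_natCast_iff]
        show d % 5 = 2 % 5
        omega
      rw [h1] at h
      revert h
      decide

/-- positive lower density -/
theorem positive_proportion (hF : StmtFinal) {r : ℕ} (hr : r = 23 ∨ r = 47) :
    ∃ c : ℝ, 0 < c ∧ ∃ X₀ : ℕ, ∀ X : ℕ, X₀ ≤ X →
      c * X ≤ ({d : ℕ | d ≤ X ∧ Squarefree d ∧ d % 60 = r ∧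
        ∀ (K : Type u) [Field K] [NumberField K] [Algebra.IsQuadraticExtension ℚ K] (θ : K),
          θ ^ 2 = -(d : K) → Finite (X015.baseChange K).toAffine.Point}.ncard : ℝ) := by
  classical
  obtain ⟨c, hc, X₀, h⟩ := hF r (by omega) (by rcases hr with rfl | rfl <;> decide)
  refine ⟨c, hc, X₀, fun X hX => (h X hX).trans (Nat.cast_le.mpr ?_)⟩
  rw [← Set.ncard_coe_finset]
  have hfin : {d : ℕ | d ≤ X ∧ Squarefree d ∧ d % 60 = r ∧
      ∀ (K : Type u) [Field K] [NumberField K] [Algebra.IsQuadraticExtension ℚ K] (θ : K),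
        θ ^ 2 = -(d : K) → Finite (X015.baseChange K).toAffine.Point}.Finite :=
    (Set.finite_Iic X).subset fun d hd => hd.1
  apply Set.ncard_le_ncard _ hfin
  intro d hd
  rw [Finset.mem_coe, mem_filter, mem_Icc] at hd
  obtain ⟨⟨_, hdX⟩, hsq, hd60, hR⟩ := hd
  refine ⟨hdX, hsq, hd60, fun K _ _ _ θ hθ => ?_⟩
  exact finite_of_redei hsq (by omega) hR K θ hθ

end Vale.Agent.P017.R2.H985
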