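import Vale.Agent.P017.R2.H985.Defs

open Finset

namespace Vale.Agent.P017.R2.H985

variable {σ : ℝ}

theorem lam_zero (σ : ℝ) : lam σ 0 = 0 := by
  unfold lam; rw [if_neg (by decide)]

theorem lam_nonneg (σ : ℝ) (n : ℕ) : 0 ≤ lam σ n := by
  unfold lam; split_ifs <;> positivity

theorem lam_even {n : ℕ} (h : ¬ Odd n) : lam σ n = 0 := by
  unfold lam; rw [if_neg h]

theorem lam_le (σ : ℝ) (n : ℕ) : lam σ n ≤ (n : ℝ) ^ (-σ) := by
  unfold lam
  split_ifs with h
  · have h1 : (1 / 2 : ℝ) ^ (ArithmeticFunction.cardFactors n) ≤ 1 :=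
      pow_le_one₀ (by norm_num) (by norm_num)
    have h2 : 0 ≤ (n : ℝ) ^ (-σ) := by positivity
    nlinarith
  · positivity

theorem lam_le_inv (hσ : 1 ≤ σ) (n : ℕ) : lam σ n ≤ 1 / (n : ℝ) := by
  rcases Nat.eq_zero_or_pos n with rfl | hn
  · rw [lam_zero]; simp
  · refine (lam_le σ n).trans ?_
    have h1 : (1 : ℝ) ≤ n := by exact_mod_cast hn
    calc (n : ℝ) ^ (-σ) ≤ (n : ℝ) ^ (-1 : ℝ) := Real.rpow_le_rpow_of_exponent_le h1 (by linarith)
      _ = 1 / n := by rw [Real.rpow_neg_one, one_div]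

theorem lam_mul (σ : ℝ) (m n : ℕ) : lam σ (m * n) = lam σ m * lam σ n := by
  rcases Nat.eq_zero_or_pos m with rfl | hm
  · simp [lam_zero]
  rcases Nat.eq_zero_or_pos n with rfl | hn
  · simp [lam_zero]
  unfold lam
  by_cases h1 : Odd m
  · by_cases h2 : Odd n
    · rw [if_pos (Nat.odd_mul.mpr ⟨h1, h2⟩), if_pos h1, if_pos h2, ArithmeticFunction.cardFactors_mul hm.ne' hn.ne',
        pow_add, Nat.cast_mul, Real.mul_rpow (by positivity) (by positivity)]
      ring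
    · rw [if_neg (fun h => h2 (Nat.odd_mul.mp h).2), if_neg h2, mul_zero]
  · rw [if_neg (fun h => h1 (Nat.odd_mul.mp h).1), if_neg h1, zero_mul]

theorem summable_rpow (hσ : 1 < σ) : Summable (fun n : ℕ => (n : ℝ) ^ (-σ)) :=
  Real.summable_nat_rpow.mpr (by linarith)

theorem summable_lam (hσ : 1 < σ) : Summable (lam σ) :=
  Summable.of_nonneg_of_le (lam_nonneg σ) (lam_le σ) (summable_rpow hσ)

theorem summable_lam_mul (hσ : 1 < σ) {χ : ℕ → ℝ} (hχ : ∀ n, |χ n| ≤ 1) :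
    Summable (fun n => lam σ n * χ n) := by
  refine Summable.of_norm_bounded (summable_lam hσ) (fun n => ?_)
  rw [Real.norm_eq_abs, abs_mul, abs_of_nonneg (lam_nonneg σ n)]
  exact mul_le_of_le_one_right (lam_nonneg σ n) (hχ n)

/-- `∑ n^{-σ} ≤ 1 + 1/(σ-1)` -/
theorem tsum_rpow_le (hσ : 1 < σ) : ∑' n : ℕ, (n : ℝ) ^ (-σ) ≤ 1 + 1 / (σ - 1) := by
  apply Real.tsum_le_of_sum_range_le (fun n => by positivity)
  intro n
  have h0 : ∀ N : ℕ, ∑ i ∈ range N, ((1 : ℝ) + ((i + 1 : ℕ) : ℝ)) ^ (-σ) ≤ 1 / (σ - 1) := by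
    intro N
    have h1 : AntitoneOn (fun x : ℝ => x ^ (-σ)) (Set.Icc 1 (1 + (N : ℝ))) := by
      intro x hx y hy hxy
      exact Real.rpow_le_rpow_of_nonpos (by linarith [hx.1]) hxy (by linarith)
    refine h1.sum_le_integral.trans ?_
    rw [integral_rpow (Or.inr ⟨by linarith, by
      rw [Set.uIcc_of_le (by linarith [(Nat.cast_nonneg N : (0:ℝ) ≤ N)])]
      intro h; linarith [h.1]⟩)]
    rw [Real.one_rpow]
    have h2 : 0 < (1 + (N : ℝ)) ^ (-σ + 1) := by positivity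
    rw [show -σ + 1 = -(σ - 1) by ring] at h2 ⊢
    rw [div_neg, ← neg_div, div_le_div_iff_of_pos_right (by linarith)]
    linarith
  have hp : (0:ℝ) < 1 / (σ - 1) := by apply div_pos one_pos; linarith
  rcases n with _ | _ | n
  · rw [range_zero, sum_empty]; linarith
  · rw [sum_range_succ]
    simp only [range_zero, sum_empty, zero_add, Nat.cast_zero]
    rw [Real.zero_rpow (by linarith)]
    linarith
  · rw [sum_range_succ', sum_range_succ']
    have h3 : ∑ k ∈ range n, ((k + 1 + 1 : ℕ) : ℝ) ^ (-σ) =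
        ∑ i ∈ range n, ((1 : ℝ) + ((i + 1 : ℕ) : ℝ)) ^ (-σ) := by
      apply sum_congr rfl
      intro i _
      congr 1
      push_cast; ring
    rw [h3]
    have h4 := h0 n
    simp only [Nat.cast_zero, zero_add, Nat.cast_one, Real.one_rpow]
    rw [Real.zero_rpow (by linarith)]
    linarith

end Vale.Agent.P017.R2.H985
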