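import Vale.Agent.P017.R2.H985.Conv

open Finset

namespace Vale.Agent.P017.R2.H985

variable {σ : ℝ}

theorem Z_nonneg (σ : ℝ) : 0 ≤ Z σ := tsum_nonneg (lam_nonneg σ)

theorem Z_le (hEP : StmtEP) (hσ : 1 < σ) : Z σ ≤ Real.sqrt (1 + 1 / (σ - 1)) := by
  have h := hEP (fun n => if Odd n then 1 else 0) (by simp) (by intro n; split_ifs <;> simp)
    (by
      intro n n'
      by_cases h1 : Odd n <;> by_cases h2 : Odd n' <;> simp [h1, h2, Nat.odd_mul])
    (by
      intro n hn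
      rw [if_neg (Nat.not_odd_iff_even.mpr hn)]) σ hσ
  have h1 : ∑' n, lam σ n * (((if Odd n then 1 else 0 : ℤ)) : ℝ) = Z σ := by
    unfold Z
    apply tsum_congr
    intro n
    by_cases h : Odd n
    · simp [h]
    · rw [lam_even h]; simp
  rw [h1] at h
  apply Real.le_sqrt_of_sq_le
  refine h.2.trans (le_trans ?_ (tsum_rpow_le hσ))
  apply Summable.tsum_le_tsum _ _ (summable_rpow hσ)
  · intro n
    have h3 : (0:ℝ) ≤ (n:ℝ) ^ (-σ) := by positivity
    split_ifs
    · simp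
    · simpa using h3
  · refine Summable.of_norm_bounded (summable_rpow hσ) (fun n => ?_)
    have h3 : (0:ℝ) ≤ (n:ℝ) ^ (-σ) := by positivity
    split_ifs
    · simp [abs_of_nonneg h3]
    · simpa using h3

theorem T_le_Z (hσ : 1 < σ) (b : ℕ) : T σ b ≤ Z σ := by
  unfold T Z
  apply Summable.tsum_le_tsum _ (summable_lam_mul hσ (fun n => abs_J_le b n)) (summable_lam hσ)
  intro n
  exact mul_le_of_le_one_right (lam_nonneg σ n) ((le_abs_self _).trans (abs_J_le b n))

theorem T'_le_Z (hσ : 1 < σ) (c : ℕ) : T' σ c ≤ Z σ := by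
  unfold T' Z
  apply Summable.tsum_le_tsum _ (summable_lam_mul hσ (fun n => abs_J_le n c)) (summable_lam hσ)
  intro n
  exact mul_le_of_le_one_right (lam_nonneg σ n) ((le_abs_self _).trans (abs_J_le n c))

/-- kernel `(x|n)` on odd `n` -/
def k1 (x n : ℕ) : ℤ := if Odd n then jacobiSym x n else 0

/-- kernel `(n|x)` on odd `n` -/
def k2 (x n : ℕ) : ℤ := if Odd n then jacobiSym n x else 0

theorem abs_jac_le (a : ℤ) (n : ℕ) : |jacobiSym a n| ≤ 1 := by
  rcases jacobiSym.trichotomy a n with h | h | h <;> rw [h] <;> simp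

theorem abs_k1 (x n : ℕ) : |k1 x n| ≤ 1 := by
  unfold k1
  split_ifs
  · exact abs_jac_le _ _
  · simp

theorem abs_k2 (x n : ℕ) : |k2 x n| ≤ 1 := by
  unfold k2
  split_ifs
  · exact abs_jac_le _ _
  · simp

theorem k1_mul (x n n' : ℕ) : k1 x (n * n') = k1 x n * k1 x n' := by
  unfold k1
  by_cases h1 : Odd n
  · by_cases h2 : Odd n'
    · have := NeZero.mk h1.pos.ne'
      have := NeZero.mk h2.pos.ne'
      rw [if_pos (Nat.odd_mul.mpr ⟨h1, h2⟩), if_pos h1, if_pos h2, jacobiSym.mul_right]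
    · rw [if_neg (fun h => h2 (Nat.odd_mul.mp h).2), if_neg h2, mul_zero]
  · rw [if_neg (fun h => h1 (Nat.odd_mul.mp h).1), if_neg h1, zero_mul]

theorem k2_mul (x n n' : ℕ) : k2 x (n * n') = k2 x n * k2 x n' := by
  unfold k2
  by_cases h1 : Odd n
  · by_cases h2 : Odd n'
    · rw [if_pos (Nat.odd_mul.mpr ⟨h1, h2⟩), if_pos h1, if_pos h2, Nat.cast_mul, jacobiSym.mul_left]
    · rw [if_neg (fun h => h2 (Nat.odd_mul.mp h).2), if_neg h2, mul_zero]
  · rw [if_neg (fun h => h1 (Nat.odd_mul.mp h).1), if_neg h1, zero_mul]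

theorem sum_range_eq (χ : ℕ → ℤ) (h0 : χ 0 = 0) (N : ℕ) :
    ∑ n ∈ range N, χ n = ∑ n ∈ Ioc 0 (N - 1), χ n := by
  symm
  apply sum_subset
  · intro n hn
    rw [mem_Ioc] at hn
    rw [mem_range]; omega
  · intro n hn hn'
    rw [mem_range] at hn
    rw [mem_Ioc] at hn'
    have : n = 0 := by omega
    rw [this, h0]

theorem T_le (hEP : StmtEP) (hLB : StmtLB) (hPS1 : StmtPS1) (hσ : 1 < σ) {b : ℕ} (hb : Odd b)
    (hsq : ¬ IsSquare b) : T σ b ≤ Real.sqrt (Real.log (4 * b) + 4) := by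
  have h := hEP (k1 b) (by simp [k1]) (abs_k1 b) (k1_mul b)
    (by intro n hn; unfold k1; rw [if_neg (Nat.not_odd_iff_even.mpr hn)]) σ hσ
  have h1 : ∑' n, lam σ n * ((k1 b n : ℤ) : ℝ) = T σ b := by
    unfold T
    apply tsum_congr
    intro n
    by_cases h : Odd n
    · simp [k1, h, J]
    · rw [lam_even h]; simp
  rw [h1] at h
  apply Real.le_sqrt_of_sq_le
  refine h.2.trans ?_
  have h2 := hLB (k1 b) (abs_k1 b) (by simp [k1]) (4 * b) (by have := hb.pos; omega) (by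
    intro N
    rw [sum_range_eq _ (by simp [k1])]
    have h3 := hPS1 b hb hsq 0 (N - 1)
    rw [sum_filter] at h3
    have h4 : ∑ n ∈ Ioc 0 (N - 1), k1 b n = ∑ n ∈ Ioc 0 (N - 1), if Odd n then jacobiSym b n else 0 := rfl
    rw [h4]
    push_cast
    exact h3) σ hσ
  push_cast at h2
  exact h2

theorem T'_le (hEP : StmtEP) (hLB : StmtLB) (hPS2 : StmtPS2) (hσ : 1 < σ) {b : ℕ} (hb : Odd b)
    (hsq : ¬ IsSquare b) : T' σ b ≤ Real.sqrt (Real.log (4 * b) + 4) := by
  have h := hEP (k2 b) (by simp [k2, jacobiSym.one_left]) (abs_k2 b) (k2_mul b)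
    (by intro n hn; unfold k2; rw [if_neg (Nat.not_odd_iff_even.mpr hn)]) σ hσ
  have h1 : ∑' n, lam σ n * ((k2 b n : ℤ) : ℝ) = T' σ b := by
    unfold T'
    apply tsum_congr
    intro n
    by_cases h : Odd n
    · simp [k2, h, J]
    · rw [lam_even h]; simp
  rw [h1] at h
  apply Real.le_sqrt_of_sq_le
  refine h.2.trans ?_
  have h2 := hLB (k2 b) (abs_k2 b) (by simp [k2]) (4 * b) (by have := hb.pos; omega) (by
    intro N
    rw [sum_range_eq _ (by simp [k2])]
    have h3 := (hPS2 b hb hsq 0 (N - 1)).2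
    rw [sum_filter] at h3
    have h4 : ∑ n ∈ Ioc 0 (N - 1), k2 b n = ∑ n ∈ Ioc 0 (N - 1), if Odd n then jacobiSym n b else 0 := rfl
    rw [h4]
    push_cast
    refine h3.trans ?_
    have : (0:ℤ) ≤ b := by positivity
    linarith) σ hσ
  push_cast at h2
  exact h2

/-- `∑_{1 ≤ b < Q} 1/b ≤ 1 + log Q` -/
theorem sum_inv_le {Q : ℕ} (hQ : 1 ≤ Q) : ∑ b ∈ range Q, 1 / (b : ℝ) ≤ 1 + Real.log Q := by
  have h1 : ∑ b ∈ range Q, 1 / (b : ℝ) ≤ ∑ b ∈ range (Q + 1), 1 / (b : ℝ) := by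
    rw [sum_range_succ]
    have : (0:ℝ) ≤ 1 / (Q : ℝ) := by positivity
    linarith
  refine h1.trans ?_
  rw [sum_range_succ']
  have h2 := harmonic_le_one_add_log Q
  unfold harmonic at h2
  push_cast at h2
  simpa [one_div] using h2

/-- `∑_{a < n} 1/a² ≤ 2` -/
theorem sum_sq_le (n : ℕ) : ∑ a ∈ range n, 1 / ((a : ℝ) * a) ≤ 2 := by
  have h : ∀ n : ℕ, ∑ a ∈ range (n + 2), 1 / ((a : ℝ) * a) ≤ 2 - 1 / ((n : ℝ) + 1) := by
    intro n
    induction n with
    | zero => rw [sum_range_succ, sum_range_succ]; norm_num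
    | succ n ih =>
      rw [sum_range_succ]
      have h3 : 1 / (((n + 2 : ℕ) : ℝ) * ((n + 2 : ℕ) : ℝ)) ≤ 1 / ((n : ℝ) + 1) - 1 / (((n + 1 : ℕ) : ℝ) + 1) := by
        push_cast
        rw [div_sub_div _ _ (by positivity) (by positivity), div_le_div_iff₀ (by positivity) (by positivity)]
        nlinarith [(Nat.cast_nonneg n : (0:ℝ) ≤ n)]
      have h4 := ih
      push_cast at h3 h4 ⊢
      linarith
  have h1 : ∑ a ∈ range n, 1 / ((a : ℝ) * a) ≤ ∑ a ∈ range (n + 2), 1 / ((a : ℝ) * a) := by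
    apply sum_le_sum_of_subset_of_nonneg
    · intro x hx; rw [mem_range] at *; omega
    · intro i _ _; positivity
  have h2 := h n
  have h3 : (0:ℝ) ≤ 1 / ((n : ℝ) + 1) := by positivity
  linarith

theorem sum_squares_le (Q : ℕ) :
    ∑ b ∈ (range Q).filter (fun b => IsSquare b), 1 / (b : ℝ) ≤ 2 := by
  have h1 : (range Q).filter (fun b => IsSquare b) ⊆ (range Q).image (fun a => a * a) := by
    intro b hb
    rw [mem_filter, mem_range] at hb
    obtain ⟨hbQ, a, rfl⟩ := hb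
    rw [mem_image]
    refine ⟨a, ?_, rfl⟩
    rw [mem_range]
    by_contra h
    push Not at h
    nlinarith
  refine (sum_le_sum_of_subset_of_nonneg h1 (fun i _ _ => by positivity)).trans ?_
  rw [sum_image (by
    intro a _ b _ h
    exact Nat.mul_self_inj.mp h)]
  simp only [Nat.cast_mul]
  exact sum_sq_le Q

/-- weighted sum over `b < Q` -/
theorem sum_lam_T (hσ : 1 < σ) {Q : ℕ} (hQ : 1 ≤ Q) {f : ℕ → ℝ} (hf : ∀ b, f b ≤ Z σ)
    (hf' : ∀ b, Odd b → ¬ IsSquare b → f b ≤ Real.sqrt (Real.log (4 * b) + 4)) :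
    ∑ b ∈ range Q, lam σ b * f b ≤
      (1 + Real.log Q) * Real.sqrt (Real.log (4 * Q) + 4) + 2 * Z σ := by
  have hZ := Z_nonneg σ
  have h1 : ∀ b ∈ range Q, lam σ b * f b ≤
      (1 / (b : ℝ)) * Real.sqrt (Real.log (4 * Q) + 4) + (if IsSquare b then 1 / (b : ℝ) else 0) * Z σ := by
    intro b hb
    rw [mem_range] at hb
    have hinv : (0:ℝ) ≤ 1 / (b : ℝ) := by positivity
    by_cases hodd : Odd b
    · by_cases hsq : IsSquare b
      · rw [if_pos hsq]
        have h2 : lam σ b * f b ≤ 1 / (b : ℝ) * Z σ := by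
          have h3 : lam σ b * f b ≤ lam σ b * Z σ := mul_le_mul_of_nonneg_left (hf b) (lam_nonneg σ b)
          have h4 : lam σ b * Z σ ≤ 1 / (b : ℝ) * Z σ :=
            mul_le_mul_of_nonneg_right (lam_le_inv hσ.le b) hZ
          linarith
        have h5 : 0 ≤ (1 / (b : ℝ)) * Real.sqrt (Real.log (4 * Q) + 4) := by positivity
        linarith
      · rw [if_neg hsq, zero_mul, add_zero]
        have hb0 : (0:ℝ) < b := by exact_mod_cast hodd.pos
        have h3 : f b ≤ Real.sqrt (Real.log (4 * Q) + 4) := by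
          refine (hf' b hodd hsq).trans (Real.sqrt_le_sqrt ?_)
          have : Real.log (4 * b) ≤ Real.log (4 * Q) := by
            apply Real.log_le_log (by positivity)
            have : (b:ℝ) ≤ Q := by exact_mod_cast hb.le
            linarith
          linarith
        have h4 : lam σ b * f b ≤ lam σ b * Real.sqrt (Real.log (4 * Q) + 4) :=
          mul_le_mul_of_nonneg_left h3 (lam_nonneg σ b)
        exact h4.trans (mul_le_mul_of_nonneg_right (lam_le_inv hσ.le b) (Real.sqrt_nonneg _))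
    · rw [lam_even hodd, zero_mul]
      have h5 : 0 ≤ (1 / (b : ℝ)) * Real.sqrt (Real.log (4 * Q) + 4) := by positivity
      have h6 : 0 ≤ (if IsSquare b then 1 / (b : ℝ) else 0) * Z σ := by
        apply mul_nonneg _ hZ
        split_ifs <;> positivity
      linarith
  refine (sum_le_sum h1).trans ?_
  rw [sum_add_distrib, ← sum_mul, ← sum_mul, ← sum_filter]
  have h2 := mul_le_mul_of_nonneg_right (sum_inv_le hQ) (Real.sqrt_nonneg (Real.log (4 * Q) + 4))
  have h3 := mul_le_mul_of_nonneg_right (sum_squares_le Q) hZ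
  linarith

end Vale.Agent.P017.R2.H985
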